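import Vale.Agent.P154.Neg.Grid.Runs.Base
import Vale.Agent.P154.Neg.Grid.Runs.E0.Agg
import Vale.Agent.P154.Neg.Grid.Runs.GG.Agg
import Vale.Agent.P154.Neg.Grid.Runs.E0.RegStates
import Vale.Agent.P154.Neg.Grid.RunReg

/-!
# P154: levels of the run at the edge -1/2
-/

namespace Vale.Agent.P154.Neg.Grid.Runs.E0.Reg

def chunk0 : regOk (mkPar 1 2) g2 GG.g4 20 st0 st1 = true := by decide +kernel

def chunk1 : regOk (mkPar 1 2) g2 GG.g4 20 st1 st2 = true := by decide +kernel

def chunk2 : regOk (mkPar 1 2) g2 GG.g4 20 st2 st3 = true := by decide +kernel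

def chunk3 : regOk (mkPar 1 2) g2 GG.g4 20 st3 st4 = true := by decide +kernel

end Vale.Agent.P154.Neg.Grid.Runs.E0.Reg
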