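import Vale.Agent.P154.Neg.Grid.Runs.Base
import Vale.Agent.P154.Neg.Grid.Runs.E0.Agg
import Vale.Agent.P154.Neg.Grid.Runs.GG.Agg
import Vale.Agent.P154.Neg.Grid.Runs.E0.RegStates
import Vale.Agent.P154.Neg.Grid.RunReg

/-!
# P154: later levels of the run at the edge -1/2
-/

namespace Vale.Agent.P154.Neg.Grid.Runs.E0.Reg

def chunk4 : regOk (mkPar 1 2) g2 GG.g4 20 st4 st5 = true := by decide +kernel

def chunk5 : regOk (mkPar 1 2) g2 GG.g4 20 st5 st6 = true := by decide +kernel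

def chunk6 : regOk (mkPar 1 2) g2 GG.g4 10 st6 st7 = true := by decide +kernel

def end_ok : regEndOk (mkPar 1 2) g1 g2 GG.g4 st7 9 1000 = true := by decide +kernel

end Vale.Agent.P154.Neg.Grid.Runs.E0.Reg
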