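import Vale.Agent.P154.Neg.Grid.Runs.E0.Ok
import Vale.Agent.P154.Neg.Grid.Runs.E0.RegRun
import Vale.Agent.P154.Neg.Grid.Runs.E0.RegRunB

/-!
# P154: the averaged bound of a run
-/

open Filter Topology

namespace Vale.Agent.P154.Neg.Grid.Runs.E0.Reg

theorem start_eq : sameL (start (mkPar 1 2)) st0 = true := by decide +kernel

/-- The regular run with four children at the edge `-1/2`. -/
theorem avT_le : ∀ᶠ n in atTop, avT (-1 / 2) sX2 4 n ≤ (4 : ℕ) * (9 / 1000) := by
  have s0 := reg_start (P := mkPar 1 2) par_ok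
  rw [sameL_eq _ _ start_eq] at s0
  have s1 := reg_chunk par_ok tabs_ok chunk0 s0
  have s2 := reg_chunk par_ok tabs_ok chunk1 s1
  have s3 := reg_chunk par_ok tabs_ok chunk2 s2
  have s4 := reg_chunk par_ok tabs_ok chunk3 s3
  have s5 := reg_chunk par_ok tabs_ok chunk4 s4
  have s6 := reg_chunk par_ok tabs_ok chunk5 s5
  have s7 := reg_chunk par_ok tabs_ok chunk6 s6
  have h := reg_end par_ok tabs_ok end_ok s7
  convert h using 4 <;> norm_num [Par.edgeVal, mkPar]

end Vale.Agent.P154.Neg.Grid.Runs.E0.Reg
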