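import Vale.Agent.P154.Neg.Grid.Runs.E0.Ok
import Vale.Agent.P154.Neg.Grid.Runs.E0.PoiRun
import Vale.Agent.P154.Neg.Grid.Runs.E0.PoiRunB

/-!
# P154: the averaged bound of a run
-/

open Filter Topology

namespace Vale.Agent.P154.Neg.Grid.Runs.E0.Poi

theorem start_eq : sameL (start (mkPar 1 2)) st0 = true := by decide +kernel

theorem q_ok : qOk (mkPar 1 2) qs 508 125 63998913488655 = true := by decide +kernel

theorem exp_ok : Real.exp ((((508 : ℕ) : ℝ)) / ((125 : ℕ) : ℝ)) ≤ ((63998913488655 : ℕ) : ℝ) / 2 ^ 40 :=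
  exp_le_of (m := 5) (n := 12) (by norm_num) (by norm_num) (by norm_num)
    (by norm_num [Finset.sum_range_succ, Nat.factorial])

/-- The Poisson run of mean `508/125` at the edge `-1/2`. -/
theorem avP_le : ∀ᶠ n in atTop, avP ((-1 / 2 : ℚ) : ℝ) sX2 ((508 / 125 : ℚ) : ℝ) n
    ≤ ENNReal.ofReal (((508 / 125 : ℚ) : ℝ) * (9 / 1000)) := by
  obtain ⟨hlen, hsum, hq⟩ := qOk_spec q_ok exp_ok
  have hd : (0 : ℝ) ≤ ((508 : ℕ) : ℝ) / ((125 : ℕ) : ℝ) := by positivity
  have hq' := fun k hk => hq k (lt_of_lt_of_le hk hlen)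
  have s0 := poi_start (P := mkPar 1 2) par_ok hd
  rw [sameL_eq _ _ start_eq] at s0
  have s1 := poi_chunk par_ok tabs_ok hd hsum hq' chunk0 s0
  have s2 := poi_chunk par_ok tabs_ok hd hsum hq' chunk1 s1
  have s3 := poi_chunk par_ok tabs_ok hd hsum hq' chunk2 s2
  have s4 := poi_chunk par_ok tabs_ok hd hsum hq' chunk3 s3
  have s5 := poi_chunk par_ok tabs_ok hd hsum hq' chunk4 s4
  have s6 := poi_chunk par_ok tabs_ok hd hsum hq' chunk5 s5
  have s7 := poi_chunk par_ok tabs_ok hd hsum hq' chunk6 s6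
  have s8 := poi_chunk par_ok tabs_ok hd hsum hq' chunk7 s7
  have s9 := poi_chunk par_ok tabs_ok hd hsum hq' chunk8 s8
  have s10 := poi_chunk par_ok tabs_ok hd hsum hq' chunk9 s9
  have s11 := poi_chunk par_ok tabs_ok hd hsum hq' chunk10 s10
  have s12 := poi_chunk par_ok tabs_ok hd hsum hq' chunk11 s11
  have s13 := poi_chunk par_ok tabs_ok hd hsum hq' chunk12 s12
  have s14 := poi_chunk par_ok tabs_ok hd hsum hq' chunk13 s13
  have s15 := poi_chunk par_ok tabs_ok hd hsum hq' chunk14 s14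
  have s16 := poi_chunk par_ok tabs_ok hd hsum hq' chunk15 s15
  have s17 := poi_chunk par_ok tabs_ok hd hsum hq' chunk16 s16
  have s18 := poi_chunk par_ok tabs_ok hd hsum hq' chunk17 s17
  have s19 := poi_chunk par_ok tabs_ok hd hsum hq' chunk18 s18
  have s20 := poi_chunk par_ok tabs_ok hd hsum hq' chunk19 s19
  have h := poi_end par_ok tabs_ok q_ok exp_ok end_ok s20
  convert h using 4 <;> norm_num [Par.edgeVal, mkPar]

end Vale.Agent.P154.Neg.Grid.Runs.E0.Poi
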